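import Mathlib

/-!
# P300 / PROJ : change of variables on a covering (helper813)

`pr : E → V ⊂ ℂⁿ` a local homeomorphism with finite fibres, `μ` the pull back of the Lebesgue measure to `E`
(`∫ Ψ dμ = ∫_V Σ_{pr x = z} Ψ x dz`), `κ : B → E` continuous and injective on an open set `B` of `ℂⁿ` with `pr ∘ κ` holomorphic.
Then `∫_{κ B} G dμ = ∫_B G (κ x) |det D(pr ∘ κ)(x)|² dx`.
-/

open MeasureTheory Filter Topology Set
open scoped ENNReal NNReal

set_option autoImplicit false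

namespace Vale.Agent.P300.H813

variable {n : ℕ}

/-- the real determinant of a complex linear map -/
theorem abs_det_restrictScalars (A : (Fin n → ℂ) →L[ℂ] (Fin n → ℂ)) :
    |(A.restrictScalars ℝ).det| = ‖A.det‖ ^ 2 := by
  have h1 : (A.restrictScalars ℝ).det = Complex.normSq A.det := by
    rw [ContinuousLinearMap.det, ContinuousLinearMap.det]
    have h2 : ((A.restrictScalars ℝ : (Fin n → ℂ) →L[ℝ] (Fin n → ℂ)) :
        (Fin n → ℂ) →ₗ[ℝ] (Fin n → ℂ)) = (A : (Fin n → ℂ) →ₗ[ℂ] (Fin n → ℂ)).restrictScalars ℝ := rfl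
    rw [h2, LinearMap.det_restrictScalars, Algebra.norm_complex_apply]
  rw [h1, Complex.normSq_eq_norm_sq, abs_of_nonneg (by positivity)]

section cov

variable {E : Type*} [TopologicalSpace E] [T2Space E] [SecondCountableTopology E] [MeasurableSpace E] [BorelSpace E]
  {pr : E → (Fin n → ℂ)} {V : Set (Fin n → ℂ)} {fib : (Fin n → ℂ) → Finset E} {μ : Measure E}

/-- integral over a Borel set on which the projection is injective -/
theorem lintegral_inj (hV : MeasurableSet V) (hpr : Continuous pr) (hprV : ∀ x, pr x ∈ V)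
    (hfib : ∀ z ∈ V, ∀ x, x ∈ fib z ↔ pr x = z)
    (hμ : ∀ Ψ : E → ℝ≥0∞, Measurable Ψ → ∫⁻ x, Ψ x ∂μ = ∫⁻ z in V, ∑ x ∈ fib z, Ψ x)
    {D : Set (Fin n → ℂ)} (hD : MeasurableSet D) {κ : (Fin n → ℂ) → E} (hκ : ContinuousOn κ D)
    (hinj : InjOn (pr ∘ κ) D) {G : E → ℝ≥0∞} (hG : Measurable G)
    {Z' : (Fin n → ℂ) → (Fin n → ℂ) →L[ℝ] (Fin n → ℂ)} (hZ : ∀ x ∈ D, HasFDerivWithinAt (pr ∘ κ) (Z' x) D x) :
    ∫⁻ x in κ '' D, G x ∂μ = ∫⁻ x in D, ENNReal.ofReal |(Z' x).det| * G (κ x) := by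
  classical
  have hκi : InjOn κ D := fun x hx y hy h => hinj hx hy (by simp [Function.comp, h])
  have hA : MeasurableSet (κ '' D) := hD.image_of_continuousOn_injOn hκ hκi
  rw [← lintegral_indicator hA, hμ _ (hG.indicator hA)]
  have hZD : MeasurableSet ((pr ∘ κ) '' D) :=
    hD.image_of_continuousOn_injOn (hpr.comp_continuousOn hκ) hinj
  -- the inverse of `pr ∘ κ`
  set g : (Fin n → ℂ) → ℝ≥0∞ := fun z => ∑ x ∈ fib z, (κ '' D).indicator G x with hg
  have h1 : ∀ x ∈ D, g ((pr ∘ κ) x) = G (κ x) := by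
    intro x hx
    have hxV : (pr ∘ κ) x ∈ V := hprV _
    simp only [hg]
    rw [Finset.sum_eq_single (κ x)]
    · exact indicator_of_mem (mem_image_of_mem κ hx) G
    · intro y hy hne
      refine indicator_of_notMem ?_ G
      rintro ⟨x', hx', rfl⟩
      have h2 : pr (κ x') = (pr ∘ κ) x := (hfib _ hxV _).1 hy
      exact hne (by rw [hinj hx' hx h2])
    · intro h
      exact absurd ((hfib _ hxV _).2 rfl) h
  have h2 : ∀ z ∈ V, z ∉ (pr ∘ κ) '' D → g z = 0 := by
    intro z hz hzD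
    simp only [hg]
    refine Finset.sum_eq_zero fun y hy => ?_
    refine indicator_of_notMem ?_ G
    rintro ⟨x', hx', rfl⟩
    exact hzD ⟨x', hx', (hfib z hz _).1 hy⟩
  have hsub : (pr ∘ κ) '' D ⊆ V := by
    rintro _ ⟨x, _, rfl⟩
    exact hprV _
  have h3 : ∫⁻ z in V, g z = ∫⁻ z in (pr ∘ κ) '' D, g z := by
    rw [← lintegral_indicator hV, ← lintegral_indicator hZD]
    refine lintegral_congr fun z => ?_
    by_cases hz : z ∈ (pr ∘ κ) '' D
    · rw [indicator_of_mem hz, indicator_of_mem (hsub hz)]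
    · rw [indicator_of_notMem hz]
      by_cases hzV : z ∈ V
      · rw [indicator_of_mem hzV, h2 z hzV hz]
      · rw [indicator_of_notMem hzV]
  rw [h3, lintegral_image_eq_lintegral_abs_det_fderiv_mul volume hD hZ hinj]
  refine setLIntegral_congr_fun hD fun x hx => ?_
  rw [h1 x hx]

/-- **[COV]** change of variables. -/
theorem cov (hV : MeasurableSet V) (hpr : IsLocalHomeomorph pr) (hprV : ∀ x, pr x ∈ V)
    (hfib : ∀ z ∈ V, ∀ x, x ∈ fib z ↔ pr x = z)
    (hμ : ∀ Ψ : E → ℝ≥0∞, Measurable Ψ → ∫⁻ x, Ψ x ∂μ = ∫⁻ z in V, ∑ x ∈ fib z, Ψ x)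
    {B : Set (Fin n → ℂ)} (hB : IsOpen B) {κ : (Fin n → ℂ) → E} (hκ : ContinuousOn κ B) (hinj : InjOn κ B)
    (hZ : DifferentiableOn ℂ (pr ∘ κ) B) {G : E → ℝ≥0∞} (hG : Measurable G)
    {D : Set (Fin n → ℂ)} (hD : MeasurableSet D) (hDB : D ⊆ B) :
    ∫⁻ x in κ '' D, G x ∂μ = ∫⁻ x in D, ENNReal.ofReal (‖(fderiv ℂ (pr ∘ κ) x).det‖ ^ 2) * G (κ x) := by
  classical
  -- local injectivity
  have hloc : ∀ x : B, ∃ U : Set (Fin n → ℂ), IsOpen U ∧ (x : Fin n → ℂ) ∈ U ∧ InjOn (pr ∘ κ) (U ∩ B) := by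
    rintro ⟨x, hx⟩
    obtain ⟨e, he, heq⟩ := hpr (κ x)
    have h1 : κ ⁻¹' e.source ∈ 𝓝[B] x := hκ x hx (e.open_source.mem_nhds he)
    obtain ⟨U, hU, hxU, hUs⟩ := mem_nhdsWithin.1 h1
    refine ⟨U, hU, hxU, fun y hy y' hy' h => ?_⟩
    have h2 : κ y ∈ e.source := hUs hy
    have h3 : κ y' ∈ e.source := hUs hy'
    refine hinj hy.2 hy'.2 (e.injOn h2 h3 ?_)
    rw [← heq]
    exact h
  choose U hU hxU hUi using hloc
  obtain ⟨T, hT, hTU⟩ := TopologicalSpace.isOpen_iUnion_countable (fun x : B => U x) hU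
  have hcov : B ⊆ ⋃ x ∈ T, U x := by
    rw [hTU]
    exact fun x hx => mem_iUnion.2 ⟨⟨x, hx⟩, hxU ⟨x, hx⟩⟩
  -- enumeration
  rcases T.eq_empty_or_nonempty with hT0 | hT0
  · have : D = ∅ := by
      refine eq_empty_of_forall_notMem fun x hx => ?_
      have := hcov (hDB hx)
      rw [hT0] at this
      simp at this
    subst this
    simp
  obtain ⟨f, hf⟩ := hT.exists_eq_range hT0
  set P : ℕ → Set (Fin n → ℂ) := fun i => D ∩ disjointed (fun i => U (f i)) i with hP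
  have hPm : ∀ i, MeasurableSet (P i) := fun i =>
    hD.inter (MeasurableSet.disjointed (fun i => (hU (f i)).measurableSet) i)
  have hPd : Pairwise (Function.onFun Disjoint P) := fun i j hij =>
    ((disjoint_disjointed _ hij).mono inter_subset_right inter_subset_right)
  have hPu : ⋃ i, P i = D := by
    rw [hP, ← inter_iUnion, iUnion_disjointed, inter_eq_left]
    intro x hx
    have := hcov (hDB hx)
    rw [hf] at this
    simpa using this
  have hPsub : ∀ i, P i ⊆ U (f i) ∩ B := fun i x hx => ⟨disjointed_subset _ i hx.2, hDB hx.1⟩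
  have himg : κ '' D = ⋃ i, κ '' P i := by rw [← image_iUnion, hPu]
  have hPi : ∀ i, InjOn (pr ∘ κ) (P i) := fun i => (hUi (f i)).mono (hPsub i)
  have hκP : ∀ i, ContinuousOn κ (P i) := fun i => hκ.mono fun x hx => (hPsub i hx).2
  have himd : Pairwise (Function.onFun Disjoint fun i => κ '' P i) := by
    intro i j hij
    refine Set.disjoint_left.2 ?_
    rintro _ ⟨x, hx, rfl⟩ ⟨y, hy, hxy⟩
    have : x = y := hinj (hPsub i hx).2 (hPsub j hy).2 hxy.symm
    subst this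
    exact Set.disjoint_left.1 (hPd hij) hx hy
  have himm : ∀ i, MeasurableSet (κ '' P i) := fun i =>
    (hPm i).image_of_continuousOn_injOn (hκP i) (hinj.mono fun x hx => (hPsub i hx).2)
  rw [himg, lintegral_iUnion himm himd, ← hPu, lintegral_iUnion hPm hPd]
  refine tsum_congr fun i => ?_
  rw [lintegral_inj hV hpr.continuous hprV hfib hμ (hPm i) (hκP i) (hPi i) hG
    (Z' := fun x => (fderiv ℂ (pr ∘ κ) x).restrictScalars ℝ)]
  · refine setLIntegral_congr_fun (hPm i) fun x hx => ?_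
    rw [abs_det_restrictScalars]
  · intro x hx
    have hxB := (hPsub i hx).2
    exact ((hZ x hxB).differentiableAt (hB.mem_nhds hxB)).hasFDerivAt.restrictScalars ℝ |>.hasFDerivWithinAt

end cov

end Vale.Agent.P300.H813
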