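import Vale.Agent.P300.H435.L2.Holo
import Vale.Agent.P300.H435.L2.LeviLog
import Vale.Agent.P300.H113.LeviF

/-!
# P300 / PROJ : sections with prescribed jets (helper813)

`M → V ⊂ ℂⁿ` an unramified finite cover, `w0` any point of `ℂⁿ`, `f0` holomorphic on the part of `M` over the ball
`|z - w0|² < 4 r0` and `L²` there.  There is `F` holomorphic on `M`, `L²` for the weight `φ + N log (1 + |z - w0|²)`, with
`F - f0` of class `L²` near `w0` for the singular weight `N log |z - w0|²`.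
-/

open MeasureTheory Filter Topology
open scoped ENNReal NNReal ComplexConjugate

set_option autoImplicit false

namespace Vale.Agent.P300.H813.N

open Vale.Agent.P300.L2 Vale.Agent.P300.L2.Sheets
open Vale.Agent.P300.H113 (leviF)

/-- `|z - w0|²` -/
noncomputable def vz {n : ℕ} (w0 z : Fin n → ℂ) : ℝ := ∑ j, ‖z j - w0 j‖ ^ 2

/-- `1` for `x ≤ 1/2`, `0` for `x ≥ 1`. -/
noncomputable def cut (x : ℝ) : ℝ := Real.smoothTransition (2 - 2 * x)

theorem cut_one {x : ℝ} (hx : x ≤ 1 / 2) : cut x = 1 :=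
  Real.smoothTransition.one_of_one_le (by linarith)

theorem cut_zero {x : ℝ} (hx : 1 ≤ x) : cut x = 0 :=
  Real.smoothTransition.zero_of_nonpos (by linarith)

theorem cut_nonneg (x : ℝ) : 0 ≤ cut x := Real.smoothTransition.nonneg _

theorem cut_le_one (x : ℝ) : cut x ≤ 1 := Real.smoothTransition.le_one _

theorem cut_contDiff (m : ℕ) : ContDiff ℝ m cut := by
  unfold cut
  exact (Real.smoothTransition.contDiff (n := m)).comp (by fun_prop)

theorem cut_diff : Differentiable ℝ cut := (cut_contDiff 1).differentiable (by norm_num)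

theorem deriv_cut_zero {x : ℝ} (hx : x < 1 / 2 ∨ 1 < x) : deriv cut x = 0 := by
  rcases hx with h | h
  · have : cut =ᶠ[𝓝 x] fun _ => 1 := by
      filter_upwards [Iio_mem_nhds h] with y hy using cut_one (le_of_lt hy)
    rw [this.deriv_eq, deriv_const]
  · have : cut =ᶠ[𝓝 x] fun _ => 0 := by
      filter_upwards [Ioi_mem_nhds h] with y hy using cut_zero (le_of_lt hy)
    rw [this.deriv_eq, deriv_const]

theorem exists_deriv_cut : ∃ B : ℝ, 0 ≤ B ∧ ∀ x, |deriv cut x| ≤ B := by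
  have hc : Continuous (deriv cut) := (cut_contDiff 1).continuous_deriv (by norm_num)
  obtain ⟨B, hB⟩ := (isCompact_Icc (a := (1 / 2 : ℝ)) (b := 1)).exists_bound_of_continuousOn
    hc.continuousOn
  refine ⟨max B 0, le_max_right _ _, fun x => ?_⟩
  by_cases hx : x ∈ Set.Icc (1 / 2 : ℝ) 1
  · exact (hB x hx).trans (le_max_left _ _)
  · rw [deriv_cut_zero, abs_zero]
    · exact le_max_right _ _
    · by_contra hcon
      push Not at hcon
      exact hx ⟨hcon.1, hcon.2⟩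

section base

variable {n : ℕ} {w0 z : Fin n → ℂ} {j : Fin n}

theorem vz_nonneg : 0 ≤ vz w0 z := Finset.sum_nonneg fun _ _ => by positivity

theorem vz_pos (h : z ≠ w0) : 0 < vz w0 z := by
  obtain ⟨j, hj⟩ : ∃ j, z j ≠ w0 j := by
    by_contra hcon
    push Not at hcon
    exact h (funext hcon)
  have h1 : 0 < ‖z j - w0 j‖ ^ 2 := by
    have := norm_pos_iff.2 (sub_ne_zero.2 hj)
    positivity
  exact lt_of_lt_of_le h1 (Finset.single_le_sum (f := fun j => ‖z j - w0 j‖ ^ 2) (fun _ _ => by positivity)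
    (Finset.mem_univ j))

theorem vz_contDiff (m : ℕ) : ContDiff ℝ m (vz w0) := by
  unfold vz
  refine ContDiff.sum fun j _ => ?_
  have h1 : ContDiff ℝ m fun z : Fin n → ℂ => z j - w0 j := by fun_prop
  exact h1.norm_sq ℝ

theorem vz_cont : Continuous (vz w0) := (vz_contDiff 0).continuous

theorem norm_sq_coord_le : ‖z j - w0 j‖ ^ 2 ≤ vz w0 z :=
  Finset.single_le_sum (f := fun j => ‖z j - w0 j‖ ^ 2) (fun _ _ => by positivity) (Finset.mem_univ j)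

theorem dzb_vz : dzb j (fun z => ((vz w0 z : ℝ) : ℂ)) z = z j - w0 j := by
  have h0 : (fun z => ((vz w0 z : ℝ) : ℂ)) = fun z => ∑ l, (z l - w0 l) * conj (z l - w0 l) := by
    funext z
    unfold vz
    push_cast
    refine Finset.sum_congr rfl fun l _ => ?_
    rw [Complex.mul_conj']
  have hd : ∀ l : Fin n, DifferentiableAt ℂ (fun z : Fin n → ℂ => z l - w0 l) z := by
    intro l; fun_prop
  have hd' : ∀ l : Fin n, DifferentiableAt ℝ (fun z : Fin n → ℂ => z l - w0 l) z := fun l =>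
    (hd l).restrictScalars ℝ
  have hd'' : ∀ l : Fin n, DifferentiableAt ℝ (fun z : Fin n → ℂ => conj (z l - w0 l)) z := fun l =>
    (Complex.conjCLE.differentiableAt).comp z (hd' l)
  rw [h0, dzb_sum (f := fun (l : Fin n) (z : Fin n → ℂ) => (z l - w0 l) * conj (z l - w0 l)) _
    (fun l _ => (hd' l).mul (hd'' l))]
  have h1 : ∀ l : Fin n, dzb j (fun z : Fin n → ℂ => (z l - w0 l) * conj (z l - w0 l)) z =
      if l = j then z j - w0 j else 0 := by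
    intro l
    rw [dzb_mul (hd' l) (hd'' l), dzb_holo (hd l), zero_mul, zero_add, dzb_conj, dz_holo (hd l)]
    have h2 : fderiv ℂ (fun z : Fin n → ℂ => z l - w0 l) z (Pi.single j 1) = (Pi.single j 1 : Fin n → ℂ) l := by
      have h3 : HasFDerivAt (fun z : Fin n → ℂ => z l - w0 l)
          (ContinuousLinearMap.proj (R := ℂ) (φ := fun _ : Fin n => ℂ) l) z := by
        exact (ContinuousLinearMap.proj (R := ℂ) (φ := fun _ : Fin n => ℂ) l).hasFDerivAt.sub_const _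
      rw [h3.fderiv]
      rfl
    rw [h2]
    by_cases hl : l = j
    · subst hl
      simp
    · simp [hl]
  rw [Finset.sum_congr rfl fun l _ => h1 l]
  simp

/-- the smooth cut-off on the base -/
theorem dzb_cut {a : ℝ} : dzb j (fun z => ((cut (a * vz w0 z) : ℝ) : ℂ)) z =
    ((deriv cut (a * vz w0 z) * a : ℝ) : ℂ) * (z j - w0 j) := by
  have hd : HasDerivAt (fun x => cut (a * x)) (deriv cut (a * vz w0 z) * a) (vz w0 z) := by
    have h1 := (cut_diff (a * vz w0 z)).hasDerivAt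
    have h2 : HasDerivAt (fun x : ℝ => a * x) a (vz w0 z) := by
      simpa using (hasDerivAt_id (vz w0 z)).const_mul a
    exact h1.comp (vz w0 z) h2
  have h := dzb_comp_real (j := j) (φ := fun x => cut (a * x)) (u := vz w0) (z := z)
    (((vz_contDiff 1).differentiable (by norm_num)) z) hd.differentiableAt
  rw [hd.deriv, dzb_vz] at h
  exact h

theorem cut_vz_contDiff (m : ℕ) (a : ℝ) : ContDiff ℝ m fun z => ((cut (a * vz w0 z) : ℝ) : ℂ) :=
  Complex.ofRealCLM.contDiff.comp ((cut_contDiff m).comp (contDiff_const.mul (vz_contDiff m)))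

end base

section main

variable {n N : ℕ} {S : Sheets n N} {w0 : Fin n → ℂ} {f0 : (Fin n → ℂ) × ℕ → ℂ} {r : ℝ}

/-- `f0` is holomorphic on the part of `M` over `{|z - w0|² < R}` -/
def HoloB (S : Sheets n N) (w0 : Fin n → ℂ) (R : ℝ) (f0 : (Fin n → ℂ) × ℕ → ℂ) : Prop :=
  ∀ W s, S.IsSection W s → (∀ z ∈ W, vz w0 z < R) → DifferentiableOn ℂ (fun z => f0 (z, s z)) W

/-- the section restricted to the ball -/
theorem sec_restrict {W : Set (Fin n → ℂ)} {s : (Fin n → ℂ) → ℕ} (hs : S.IsSection W s) (R : ℝ) :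
    S.IsSection (W ∩ {z | vz w0 z < R}) s :=
  S.mono_dom hs ((S.isOpen_dom hs).inter (isOpen_lt vz_cont continuous_const)) Set.inter_subset_left

theorem cut_cd (hr : 0 < r) (hf0 : HoloB S w0 (2 * r) f0) (m : ℕ) :
    S.CD m (fun q => ((cut (r⁻¹ * vz w0 q.1) : ℝ) : ℂ) * f0 q) := by
  intro W s hs z hz
  by_cases h : vz w0 z < 2 * r
  · have hs' := sec_restrict (w0 := w0) hs (2 * r)
    have h1 := contDiffOn_real_of_holo (S.isOpen_dom hs') (hf0 _ _ hs' fun z hz => hz.2)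
    have h2 : ContDiffOn ℝ m (fun z => ((cut (r⁻¹ * vz w0 z) : ℝ) : ℂ) * f0 (z, s z))
        (W ∩ {z | vz w0 z < 2 * r}) := (cut_vz_contDiff m r⁻¹).contDiffOn.mul (h1 m)
    exact ((h2 z ⟨hz, h⟩).contDiffAt ((S.isOpen_dom hs').mem_nhds ⟨hz, h⟩)).contDiffWithinAt
  · push Not at h
    have h1 : (fun z => ((cut (r⁻¹ * vz w0 z) : ℝ) : ℂ) * f0 (z, s z)) =ᶠ[𝓝 z] fun _ => 0 := by
      have h2 : ∀ᶠ y in 𝓝 z, r < vz w0 y := vz_cont.continuousAt.eventually_const_lt (by linarith)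
      filter_upwards [h2] with y hy
      rw [cut_zero (by rw [le_inv_mul_iff₀ hr]; linarith)]
      simp
    exact (contDiffAt_const.congr_of_eventuallyEq h1).contDiffWithinAt

theorem Db_cut_mul (hr : 0 < r) (hf0 : HoloB S w0 (2 * r) f0) {q : (Fin n → ℂ) × ℕ} (hq : q ∈ S.M) (j : Fin n) :
    S.Db j (fun q => ((cut (r⁻¹ * vz w0 q.1) : ℝ) : ℂ) * f0 q) q =
      ((deriv cut (r⁻¹ * vz w0 q.1) * r⁻¹ : ℝ) : ℂ) * (q.1 j - w0 j) * f0 q := by
  obtain ⟨s, W, hs, z, hz, rfl⟩ := exists_section' hq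
  rw [Db_apply hs hz]
  by_cases h : vz w0 z < 2 * r
  · have hs' := sec_restrict (w0 := w0) hs (2 * r)
    have hd : DifferentiableAt ℂ (fun z => f0 (z, s z)) z :=
      (hf0 _ _ hs' (fun z hz => hz.2) z ⟨hz, h⟩).differentiableAt ((S.isOpen_dom hs').mem_nhds ⟨hz, h⟩)
    rw [dzb_mul (((cut_vz_contDiff 1 r⁻¹).differentiable (by norm_num)) z) (hd.restrictScalars ℝ), dzb_holo hd, mul_zero,
      add_zero, dzb_cut]
  · push Not at h
    have h1 : (fun z => ((cut (r⁻¹ * vz w0 z) : ℝ) : ℂ) * f0 (z, s z)) =ᶠ[𝓝 z] fun _ => 0 := by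
      have h2 : ∀ᶠ y in 𝓝 z, r < vz w0 y := vz_cont.continuousAt.eventually_const_lt (by linarith)
      filter_upwards [h2] with y hy
      rw [cut_zero (by rw [le_inv_mul_iff₀ hr]; linarith)]
      simp
    rw [dzb_congr h1, dzb_const]
    dsimp only
    rw [deriv_cut_zero (Or.inr (by rw [lt_inv_mul_iff₀ hr]; linarith))]
    simp

/-- the weights -/
noncomputable def Ph (φ : (Fin n → ℂ) → ℝ) (w0 : Fin n → ℂ) (N' : ℕ) (m : ℕ) (q : (Fin n → ℂ) × ℕ) : ℝ :=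
  φ q.1 + N' * Real.log (((m : ℝ) + 1)⁻¹ + vz w0 q.1)

theorem exp_Ph {φ : (Fin n → ℂ) → ℝ} {N' m : ℕ} (q : (Fin n → ℂ) × ℕ) :
    Real.exp (-Ph φ w0 N' m q) = Real.exp (-φ q.1) * ((((m : ℝ) + 1)⁻¹ + vz w0 q.1) ^ N')⁻¹ := by
  have h0 : 0 < ((m : ℝ) + 1)⁻¹ + vz w0 q.1 := by
    have := vz_nonneg (w0 := w0) (z := q.1)
    positivity
  unfold Ph
  rw [neg_add, Real.exp_add, Real.exp_neg (N' * Real.log _)]
  congr 2
  rw [Real.exp_nat_mul, Real.exp_log h0]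

theorem holo_coord (j : Fin n) : S.Holo fun q => q.1 j - w0 j :=
  Holo.fst (f := fun z => z j - w0 j) (by fun_prop)

theorem Ph_cd {φ : (Fin n → ℂ) → ℝ} (hφ : ContDiffOn ℝ 2 φ S.V) (N' m : ℕ) :
    S.CD 2 (fun q => ((Ph φ w0 N' m q : ℝ) : ℂ)) := by
  have h1 : S.CD 2 (fun q => ((φ q.1 : ℝ) : ℂ)) :=
    CD.fst (f := fun z => ((φ z : ℝ) : ℂ)) (Complex.ofRealCLM.contDiff.comp_contDiffOn hφ)
  have h2 : S.CD 2 (fun q => ((Real.log (((m : ℝ) + 1)⁻¹ + ∑ j, ‖q.1 j - w0 j‖ ^ 2) : ℝ) : ℂ)) :=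
    CD.log_normSq_sum (F := fun j q => q.1 j - w0 j) (fun j => holo_coord j) 2 (by positivity)
  refine (h1.add ((CD.const (N' : ℂ)).mul h2)).congr fun q _ => ?_
  simp only [Ph, vz]
  push_cast
  ring

theorem Ph_levi {φ : (Fin n → ℂ) → ℝ} (hφ : ContDiffOn ℝ 2 φ S.V) (N' m : ℕ) {q : (Fin n → ℂ) × ℕ} (hq : q ∈ S.M)
    (β : Fin n → ℂ) : leviF φ β q.1 ≤ S.levi (Ph φ w0 N' m) β q := by
  have h1 : S.CD 2 (fun q => ((φ q.1 : ℝ) : ℂ)) :=
    CD.fst (f := fun z => ((φ z : ℝ) : ℂ)) (Complex.ofRealCLM.contDiff.comp_contDiffOn hφ)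
  have h2 : S.CD 2 (fun q => ((Real.log (((m : ℝ) + 1)⁻¹ + ∑ j, ‖q.1 j - w0 j‖ ^ 2) : ℝ) : ℂ)) :=
    CD.log_normSq_sum (F := fun j q => q.1 j - w0 j) (fun j => holo_coord j) 2 (by positivity)
  have h3 := levi_lin h1 h2 1 (N' : ℝ) hq β
  have h4 : S.levi (Ph φ w0 N' m) β q = S.levi (fun q => 1 * φ q.1 +
      (N' : ℝ) * Real.log (((m : ℝ) + 1)⁻¹ + ∑ j, ‖q.1 j - w0 j‖ ^ 2)) β q := by
    congr 1
    funext q
    simp [Ph, vz]
  have h5 : 0 ≤ S.levi (fun q => Real.log (((m : ℝ) + 1)⁻¹ + ∑ j, ‖q.1 j - w0 j‖ ^ 2)) β q := by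
    refine le_trans ?_ (levi_log_ge (S := S) (F := fun (j : Fin n) q => q.1 j - w0 j)
      (fun j => holo_coord j) (s := ((m : ℝ) + 1)⁻¹) (by positivity) hq β)
    positivity
  have h6 : S.levi (fun q => φ q.1) β q = leviF φ β q.1 := rfl
  rw [h4, h3, h6]
  have : 0 ≤ (N' : ℝ) * S.levi (fun q => Real.log (((m : ℝ) + 1)⁻¹ + ∑ j, ‖q.1 j - w0 j‖ ^ 2)) β q := by positivity
  linarith

theorem Ph_anti {φ : (Fin n → ℂ) → ℝ} {N' : ℕ} (m : ℕ) (q : (Fin n → ℂ) × ℕ) :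
    Ph φ w0 N' (m + 1) q ≤ Ph φ w0 N' m q := by
  unfold Ph
  have h0 := vz_nonneg (w0 := w0) (z := q.1)
  have h1 : (((m + 1 : ℕ) : ℝ) + 1)⁻¹ ≤ ((m : ℝ) + 1)⁻¹ := by
    push_cast
    gcongr
    linarith
  have h2 : 0 < (((m + 1 : ℕ) : ℝ) + 1)⁻¹ := by positivity
  have h3 := Real.log_le_log (by positivity : 0 < (((m + 1 : ℕ) : ℝ) + 1)⁻¹ + vz w0 q.1)
    (by linarith : (((m + 1 : ℕ) : ℝ) + 1)⁻¹ + vz w0 q.1 ≤ ((m : ℝ) + 1)⁻¹ + vz w0 q.1)
  have h4 : (0 : ℝ) ≤ N' := by positivity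
  nlinarith [mul_le_mul_of_nonneg_left h3 h4]

theorem Ph_tendsto {φ : (Fin n → ℂ) → ℝ} {N' : ℕ} {q : (Fin n → ℂ) × ℕ} (h : 0 < vz w0 q.1 ∨ N' = 0) :
    Tendsto (fun m : ℕ => Real.exp (-Ph φ w0 N' m q)) atTop (𝓝 (Real.exp (-φ q.1) * (vz w0 q.1 ^ N')⁻¹)) := by
  simp only [exp_Ph]
  refine Tendsto.const_mul _ ?_
  rcases h with h | h
  · refine Tendsto.inv₀ ?_ (by positivity)
    refine Tendsto.pow ?_ _
    have h1 : Tendsto (fun m : ℕ => ((m : ℝ) + 1)⁻¹) atTop (𝓝 0) := by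
      have := tendsto_one_div_add_atTop_nhds_zero_nat (𝕜 := ℝ)
      simpa [one_div] using this
    simpa using h1.add_const (vz w0 q.1)
  · subst h
    simp

/-- Cauchy-Schwarz -/
theorem cs_sum (a b : Fin n → ℂ) : ‖∑ l, a l * conj (b l)‖ ^ 2 ≤ (∑ l, ‖a l‖ ^ 2) * ∑ l, ‖b l‖ ^ 2 := by
  have h1 : ‖∑ l, a l * conj (b l)‖ ≤ ∑ l, ‖a l‖ * ‖b l‖ := by
    refine (norm_sum_le _ _).trans (le_of_eq (Finset.sum_congr rfl fun l _ => ?_))
    rw [norm_mul, RCLike.norm_conj]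
  calc ‖∑ l, a l * conj (b l)‖ ^ 2 ≤ (∑ l, ‖a l‖ * ‖b l‖) ^ 2 := pow_le_pow_left₀ (norm_nonneg _) h1 2
    _ ≤ _ := Finset.sum_mul_sq_le_sq_mul_sq _ _ _

/-- measurability of the balls -/
theorem meas_ball (R : ℝ) : MeasurableSet {q : (Fin n → ℂ) × ℕ | vz w0 q.1 ≤ R} :=
  measurableSet_le (vz_cont.measurable.comp measurable_fst) measurable_const

/-- **[SEC]** sections with prescribed jets. -/
theorem sec {p : (Fin n → ℂ) → ℝ} {C : ℝ} {k0 : ℕ} (hp : Exh S.V p C k0)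
    {φ : (Fin n → ℂ) → ℝ} (hφ : ContDiffOn ℝ 2 φ S.V) (hφ0 : ∀ z ∈ S.V, 0 ≤ φ z)
    (hφl : ∀ z ∈ S.V, ∀ β : Fin n → ℂ, 0 ≤ leviF φ β z)
    {r c B : ℝ} (hr : 0 < r) (hc : 0 < c)
    (hφc : ∀ z ∈ S.V, vz w0 z ≤ r → ∀ β : Fin n → ℂ, c * ∑ j, ‖β j‖ ^ 2 ≤ leviF φ β z)
    (hφB : ∀ z ∈ S.V, vz w0 z ≤ r → φ z ≤ B)
    (hf0 : HoloB S w0 (4 * r) f0)
    (hf0g : ∃ (c : ℝ) (k : ℕ), ∀ q ∈ S.M, vz w0 q.1 ≤ r → ‖f0 q‖ ≤ c * (1 + p q.1) ^ k)
    (hf0i : ∫⁻ q in {q | vz w0 q.1 ≤ r}, ENNReal.ofReal (‖f0 q‖ ^ 2) ∂S.μ < ⊤) (N' : ℕ) :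
    ∃ F : (Fin n → ℂ) × ℕ → ℂ, S.Holo F ∧
      ∫⁻ q, ENNReal.ofReal (‖F q‖ ^ 2 * (Real.exp (-φ q.1) * ((1 + vz w0 q.1) ^ N')⁻¹)) ∂S.μ < ⊤ ∧
      ∫⁻ q in {q | vz w0 q.1 ≤ r / 2}, ENNReal.ofReal (‖F q - f0 q‖ ^ 2 * (vz w0 q.1 ^ N')⁻¹) ∂S.μ < ⊤ := by
  classical
  obtain ⟨B1, hB1, hB1'⟩ := exists_deriv_cut
  have hpos : ∀ q ∈ S.M, 0 ≤ p q.1 := fun q hq => (sq_nonneg _).trans (hp.norm_sq_le q.1 hq.1)
  have hf0' : HoloB S w0 (2 * r) f0 := fun W s hs h => hf0 W s hs fun z hz => (h z hz).trans (by linarith)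
  -- an auxiliary extension of `f0`
  set f1 : (Fin n → ℂ) × ℕ → ℂ := fun q => ((cut ((2 * r)⁻¹ * vz w0 q.1) : ℝ) : ℂ) * f0 q with hf1
  have hf1cd : ∀ m : ℕ, S.CD m f1 := fun m =>
    cut_cd (by positivity) (show HoloB S w0 (2 * (2 * r)) f0 by rw [show 2 * (2 * r) = 4 * r by ring]; exact hf0) m
  have hf1eq : ∀ q, vz w0 q.1 ≤ r → f1 q = f0 q := by
    intro q hq
    simp only [hf1]
    rw [cut_one]
    · simp
    · rw [inv_mul_le_iff₀ (by positivity)]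
      linarith
  -- the cut-off
  set σ : (Fin n → ℂ) × ℕ → ℂ := fun q => ((cut (r⁻¹ * vz w0 q.1) : ℝ) : ℂ) * f0 q with hσ
  have hσcd : ∀ m : ℕ, S.CD m σ := fun m => cut_cd hr hf0' m
  have hσout : ∀ q, r ≤ vz w0 q.1 → σ q = 0 := by
    intro q hq
    simp only [hσ]
    rw [cut_zero (by rw [le_inv_mul_iff₀ hr]; linarith)]
    simp
  have hσin : ∀ q, vz w0 q.1 ≤ r / 2 → σ q = f0 q := by
    intro q hq
    simp only [hσ]
    rw [cut_one]
    · simp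
    · rw [inv_mul_le_iff₀ hr]
      linarith
  have hσle : ∀ q, ‖σ q‖ ≤ ‖f0 q‖ := by
    intro q
    simp only [hσ]
    rw [norm_mul, Complex.norm_real, Real.norm_of_nonneg (cut_nonneg _)]
    exact mul_le_of_le_one_left (norm_nonneg _) (cut_le_one _)
  -- the data
  set α : Fin n → (Fin n → ℂ) × ℕ → ℂ := fun j => S.Db j σ with hα
  have hαcd : ∀ j, S.CD 1 (α j) := fun j => CD.Db (m := 1) (hσcd 2)
  have hαeq : ∀ q ∈ S.M, ∀ j, α j q = ((deriv cut (r⁻¹ * vz w0 q.1) * r⁻¹ : ℝ) : ℂ) * (q.1 j - w0 j) * f0 q :=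
    fun q hq j => Db_cut_mul hr hf0' hq j
  -- vanishing of the derivative of the cut-off
  have hcut0 : ∀ q : (Fin n → ℂ) × ℕ, ¬ (r / 2 ≤ vz w0 q.1 ∧ vz w0 q.1 ≤ r) → deriv cut (r⁻¹ * vz w0 q.1) = 0 := by
    intro q hq
    apply deriv_cut_zero
    by_contra hcon
    push Not at hcon
    apply hq
    obtain ⟨h1, h2⟩ := hcon
    rw [le_inv_mul_iff₀ hr] at h1
    rw [inv_mul_le_iff₀ hr] at h2
    constructor <;> linarith
  -- growth of the data
  have hαb : ∃ (c : ℝ) (k : ℕ), ∀ q ∈ S.M, ∀ j, ‖α j q‖ ≤ c * (1 + p q.1) ^ k := by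
    obtain ⟨c1, k1, hc1⟩ := hf0g
    refine ⟨B1 * r⁻¹ * (1 + r) * |c1|, k1, fun q hq j => ?_⟩
    have hp1 : (0 : ℝ) ≤ (1 + p q.1) ^ k1 := by
      have := hpos q hq
      positivity
    rw [hαeq q hq j]
    by_cases h : r / 2 ≤ vz w0 q.1 ∧ vz w0 q.1 ≤ r
    · have h1 : ‖((deriv cut (r⁻¹ * vz w0 q.1) * r⁻¹ : ℝ) : ℂ)‖ ≤ B1 * r⁻¹ := by
        rw [Complex.norm_real, Real.norm_eq_abs, abs_mul, abs_of_pos (inv_pos.2 hr)]
        exact mul_le_mul_of_nonneg_right (hB1' _) (inv_nonneg.2 hr.le)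
      have h2 : ‖q.1 j - w0 j‖ ≤ 1 + r := by
        have h3 : ‖q.1 j - w0 j‖ ^ 2 ≤ r := norm_sq_coord_le.trans h.2
        nlinarith [norm_nonneg (q.1 j - w0 j), sq_nonneg (‖q.1 j - w0 j‖ - 1)]
      have h4 : ‖f0 q‖ ≤ |c1| * (1 + p q.1) ^ k1 :=
        (hc1 q hq h.2).trans (mul_le_mul_of_nonneg_right (le_abs_self _) hp1)
      rw [norm_mul, norm_mul]
      calc _ ≤ B1 * r⁻¹ * (1 + r) * (|c1| * (1 + p q.1) ^ k1) := by gcongr
        _ = _ := by ring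
    · rw [hcut0 q h]
      simp only [zero_mul, Complex.ofReal_zero, norm_zero]
      positivity
  -- the pointwise bound
  set A1 : ℝ := (B1 * r⁻¹) ^ 2 * r * c⁻¹ with hA1
  have hA10 : 0 ≤ A1 := by positivity
  set a : ℕ → (Fin n → ℂ) × ℕ → ℝ := fun _ q =>
    {q : (Fin n → ℂ) × ℕ | r / 2 ≤ vz w0 q.1 ∧ vz w0 q.1 ≤ r}.indicator (fun q => A1 * ‖f1 q‖ ^ 2) q with ha
  have ha0 : ∀ m q, 0 ≤ a m q := fun m q => Set.indicator_nonneg (fun _ _ => by positivity) _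
  have hset : MeasurableSet {q : (Fin n → ℂ) × ℕ | r / 2 ≤ vz w0 q.1 ∧ vz w0 q.1 ≤ r} :=
    (measurableSet_le measurable_const (vz_cont.measurable.comp measurable_fst)).inter (meas_ball r)
  have ham : ∀ m, AEMeasurable (a m) S.μ := fun m =>
    ((((aestronglyMeasurable_of_CD (hf1cd 0)).norm.aemeasurable.pow_const 2).const_mul A1).indicator hset)
  have hlevi : ∀ m, ∀ q ∈ S.M, ∀ β : Fin n → ℂ, 0 ≤ S.levi (Ph φ w0 N' m) β q := fun m q hq β =>
    (hφl q.1 hq.1 β).trans (Ph_levi hφ N' m hq β)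
  have hab : ∀ m, ∀ q ∈ S.M, ∀ β : Fin n → ℂ,
      ‖∑ j, α j q * conj (β j)‖ ^ 2 ≤ a m q * S.levi (Ph φ w0 N' m) β q := by
    intro m q hq β
    have hsum : ∑ j, α j q * conj (β j) = ((deriv cut (r⁻¹ * vz w0 q.1) * r⁻¹ : ℝ) : ℂ) * f0 q *
        ∑ j, (q.1 j - w0 j) * conj (β j) := by
      rw [Finset.mul_sum]
      refine Finset.sum_congr rfl fun j _ => ?_
      rw [hαeq q hq j]
      ring
    by_cases h : r / 2 ≤ vz w0 q.1 ∧ vz w0 q.1 ≤ r
    · have e1 : a m q = A1 * ‖f0 q‖ ^ 2 := by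
        simp only [ha]
        rw [Set.indicator_of_mem (s := {q : (Fin n → ℂ) × ℕ | r / 2 ≤ vz w0 q.1 ∧ vz w0 q.1 ≤ r}) h, hf1eq q h.2]
      have h2 : c * ∑ j, ‖β j‖ ^ 2 ≤ S.levi (Ph φ w0 N' m) β q :=
        (hφc q.1 hq.1 h.2 β).trans (Ph_levi hφ N' m hq β)
      have h3 : ‖∑ j, (q.1 j - w0 j) * conj (β j)‖ ^ 2 ≤ r * ∑ j, ‖β j‖ ^ 2 :=
        (cs_sum _ _).trans (mul_le_mul_of_nonneg_right h.2 (Finset.sum_nonneg fun _ _ => by positivity))
      have h4 : ‖((deriv cut (r⁻¹ * vz w0 q.1) * r⁻¹ : ℝ) : ℂ)‖ ≤ B1 * r⁻¹ := by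
        rw [Complex.norm_real, Real.norm_eq_abs, abs_mul, abs_of_pos (inv_pos.2 hr)]
        exact mul_le_mul_of_nonneg_right (hB1' _) (inv_nonneg.2 hr.le)
      rw [hsum, norm_mul, norm_mul, mul_pow, mul_pow, e1]
      calc ‖((deriv cut (r⁻¹ * vz w0 q.1) * r⁻¹ : ℝ) : ℂ)‖ ^ 2 * ‖f0 q‖ ^ 2 *
            ‖∑ j, (q.1 j - w0 j) * conj (β j)‖ ^ 2
          ≤ (B1 * r⁻¹) ^ 2 * ‖f0 q‖ ^ 2 * (r * ∑ j, ‖β j‖ ^ 2) := by gcongr
        _ = A1 * ‖f0 q‖ ^ 2 * (c * ∑ j, ‖β j‖ ^ 2) := by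
            rw [hA1]
            field_simp
        _ ≤ _ := mul_le_mul_of_nonneg_left h2 (by positivity)
    · have e1 : a m q = 0 := by
        simp only [ha]
        exact Set.indicator_of_notMem (s := {q : (Fin n → ℂ) × ℕ | r / 2 ≤ vz w0 q.1 ∧ vz w0 q.1 ≤ r}) h _
      rw [hsum, hcut0 q h, e1]
      simp
  -- the integral bound
  set I0 : ℝ≥0∞ := ∫⁻ q in {q | vz w0 q.1 ≤ r}, ENNReal.ofReal (‖f0 q‖ ^ 2) ∂S.μ with hI0
  set A2 : ℝ := A1 * ((r / 2) ^ N')⁻¹ with hA2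
  have hA20 : 0 ≤ A2 := by positivity
  have hA : ∀ m, ∫⁻ q, ENNReal.ofReal (a m q * Real.exp (-Ph φ w0 N' m q)) ∂S.μ ≤
      ENNReal.ofReal (A2 * I0.toReal) := by
    intro m
    have h1 : ∫⁻ q, ENNReal.ofReal (a m q * Real.exp (-Ph φ w0 N' m q)) ∂S.μ ≤
        ∫⁻ q in {q | vz w0 q.1 ≤ r}, ENNReal.ofReal A2 * ENNReal.ofReal (‖f0 q‖ ^ 2) ∂S.μ := by
      rw [← lintegral_indicator (meas_ball r)]
      refine lintegral_mono_ae ?_
      filter_upwards [ae_mem_M (S := S)] with q hq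
      by_cases h : r / 2 ≤ vz w0 q.1 ∧ vz w0 q.1 ≤ r
      · have e1 : a m q = A1 * ‖f0 q‖ ^ 2 := by
          simp only [ha]
          rw [Set.indicator_of_mem (s := {q : (Fin n → ℂ) × ℕ | r / 2 ≤ vz w0 q.1 ∧ vz w0 q.1 ≤ r}) h, hf1eq q h.2]
        rw [Set.indicator_of_mem (s := {q : (Fin n → ℂ) × ℕ | vz w0 q.1 ≤ r}) h.2, ← ENNReal.ofReal_mul hA20, e1,
          exp_Ph]
        refine ENNReal.ofReal_le_ofReal ?_
        have h2 : Real.exp (-φ q.1) ≤ 1 := by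
          rw [Real.exp_le_one_iff]
          linarith [hφ0 q.1 hq.1]
        have h3 : ((((m : ℝ) + 1)⁻¹ + vz w0 q.1) ^ N')⁻¹ ≤ ((r / 2) ^ N')⁻¹ := by
          have h5 : 0 < ((m : ℝ) + 1)⁻¹ := by positivity
          gcongr
          linarith [h.1]
        have h5 : (0 : ℝ) ≤ ((((m : ℝ) + 1)⁻¹ + vz w0 q.1) ^ N')⁻¹ := by
          have := vz_nonneg (w0 := w0) (z := q.1)
          positivity
        calc A1 * ‖f0 q‖ ^ 2 * (Real.exp (-φ q.1) * ((((m : ℝ) + 1)⁻¹ + vz w0 q.1) ^ N')⁻¹)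
            ≤ A1 * ‖f0 q‖ ^ 2 * (1 * ((r / 2) ^ N')⁻¹) := by gcongr
          _ = A2 * ‖f0 q‖ ^ 2 := by rw [hA2]; ring
      · have e1 : a m q = 0 := by
          simp only [ha]
          exact Set.indicator_of_notMem (s := {q : (Fin n → ℂ) × ℕ | r / 2 ≤ vz w0 q.1 ∧ vz w0 q.1 ≤ r}) h _
        rw [e1]
        simp
    refine h1.trans ?_
    rw [lintegral_const_mul' _ _ ENNReal.ofReal_ne_top, ENNReal.ofReal_mul hA20, ENNReal.ofReal_toReal hf0i.ne]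
  -- Hörmander's theorem
  obtain ⟨u, hum, hub, huw⟩ := hormander_sing hp (Φ := Ph φ w0 N') (fun m => Ph_cd hφ N' m)
    (fun m q _ => Ph_anti m q)
    (by
      intro m
      refine ⟨N' * Real.log ((m : ℝ) + 1)⁻¹, fun q hq => ?_⟩
      unfold Ph
      have h0 := vz_nonneg (w0 := w0) (z := q.1)
      have h3 := Real.log_le_log (by positivity : 0 < ((m : ℝ) + 1)⁻¹)
        (by linarith : ((m : ℝ) + 1)⁻¹ ≤ ((m : ℝ) + 1)⁻¹ + vz w0 q.1)
      have h4 : (0 : ℝ) ≤ N' := by positivity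
      have h5 := hφ0 q.1 hq.1
      nlinarith [mul_le_mul_of_nonneg_left h3 h4])
    hlevi α hαcd (fun q hq j k => Db_Db_comm (hσcd 2) hq) hαb a ha0 ham hab (by positivity) hA
  set A3 : ℝ := 2 * (A2 * I0.toReal) with hA3
  -- local square integrability
  have hloc : ∀ K : Set (Fin n → ℂ), IsCompact K → K ⊆ S.V →
      ∫⁻ q in {q : (Fin n → ℂ) × ℕ | q.1 ∈ K}, ‖u q‖ₑ ^ 2 ∂S.μ < ⊤ := by
    intro K hK hKV
    have hcont : ContinuousOn (fun z => Ph φ w0 N' 0 (z, (0 : ℕ))) K := by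
      have h1 : ContinuousOn φ K := hφ.continuousOn.mono hKV
      unfold Ph
      refine h1.add (continuousOn_const.mul (ContinuousOn.log ?_ ?_))
      · exact (continuous_const.add vz_cont).continuousOn
      · intro z _
        have := vz_nonneg (w0 := w0) (z := z)
        positivity
    obtain ⟨D, hD⟩ := hK.exists_bound_of_continuousOn hcont
    have hKm : MeasurableSet {q : (Fin n → ℂ) × ℕ | q.1 ∈ K} := hK.measurableSet.preimage measurable_fst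
    have h1 : ∫⁻ q in {q : (Fin n → ℂ) × ℕ | q.1 ∈ K}, ‖u q‖ₑ ^ 2 ∂S.μ ≤
        ∫⁻ q in {q : (Fin n → ℂ) × ℕ | q.1 ∈ K}, ENNReal.ofReal (Real.exp D) *
          ENNReal.ofReal (‖u q‖ ^ 2 * Real.exp (-Ph φ w0 N' 0 q)) ∂S.μ := by
      refine setLIntegral_mono_ae' hKm ?_
      filter_upwards with q hq
      rw [← ENNReal.ofReal_mul (Real.exp_pos _).le, ← ofReal_norm, ← ENNReal.ofReal_pow (norm_nonneg _)]
      refine ENNReal.ofReal_le_ofReal ?_
      have h2 : Ph φ w0 N' 0 q ≤ D := (le_abs_self _).trans (hD q.1 hq)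
      have h3 : 1 ≤ Real.exp D * Real.exp (-Ph φ w0 N' 0 q) := by
        rw [← Real.exp_add]
        exact Real.one_le_exp (by linarith)
      nlinarith [sq_nonneg ‖u q‖]
    refine h1.trans_lt ?_
    rw [lintegral_const_mul' _ _ ENNReal.ofReal_ne_top]
    exact ENNReal.mul_lt_top ENNReal.ofReal_lt_top
      ((setLIntegral_le_lintegral _ _).trans_lt ((hub 0).trans_lt ENNReal.ofReal_lt_top))
  obtain ⟨F, hF, hFu⟩ := weylM_sub (hσcd 1) hum hloc huw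
  refine ⟨F, hF, ?_, ?_⟩
  · -- global bound
    have h1 : ∫⁻ q, ENNReal.ofReal (‖F q‖ ^ 2 * (Real.exp (-φ q.1) * ((1 + vz w0 q.1) ^ N')⁻¹)) ∂S.μ ≤
        ∫⁻ q, (2 * ({q : (Fin n → ℂ) × ℕ | vz w0 q.1 ≤ r}.indicator (fun q => ENNReal.ofReal (‖f0 q‖ ^ 2)) q) +
          2 * ENNReal.ofReal (‖u q‖ ^ 2 * Real.exp (-Ph φ w0 N' 0 q))) ∂S.μ := by
      refine lintegral_mono_ae ?_
      filter_upwards [ae_mem_M (S := S), hFu] with q hq hqF
      have e1 : Real.exp (-φ q.1) * ((1 + vz w0 q.1) ^ N')⁻¹ = Real.exp (-Ph φ w0 N' 0 q) := by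
        rw [exp_Ph]
        norm_num
      have h0 := vz_nonneg (w0 := w0) (z := q.1)
      have h2 : Real.exp (-Ph φ w0 N' 0 q) ≤ 1 := by
        rw [← e1]
        have h3 : Real.exp (-φ q.1) ≤ 1 := by
          rw [Real.exp_le_one_iff]
          linarith [hφ0 q.1 hq.1]
        have h4 : ((1 + vz w0 q.1) ^ N')⁻¹ ≤ 1 := inv_le_one_of_one_le₀ (one_le_pow₀ (by linarith))
        calc _ ≤ (1 : ℝ) * 1 := by gcongr
          _ = 1 := one_mul 1
      have h5 : ‖F q‖ ^ 2 ≤ 2 * ‖σ q‖ ^ 2 + 2 * ‖u q‖ ^ 2 := by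
        rw [← hqF]
        have h6 := norm_sub_le (σ q) (u q)
        nlinarith [norm_nonneg (σ q - u q), norm_nonneg (σ q), norm_nonneg (u q), sq_nonneg (‖σ q‖ - ‖u q‖)]
      rw [e1]
      have hE := Real.exp_pos (-Ph φ w0 N' 0 q)
      have h7 : ‖F q‖ ^ 2 * Real.exp (-Ph φ w0 N' 0 q) ≤
          2 * ‖σ q‖ ^ 2 + 2 * (‖u q‖ ^ 2 * Real.exp (-Ph φ w0 N' 0 q)) := by
        have h8 : ‖σ q‖ ^ 2 * Real.exp (-Ph φ w0 N' 0 q) ≤ ‖σ q‖ ^ 2 := mul_le_of_le_one_right (by positivity) h2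
        nlinarith [mul_le_mul_of_nonneg_right h5 hE.le]
      refine (ENNReal.ofReal_le_ofReal h7).trans ?_
      rw [ENNReal.ofReal_add (by positivity) (by positivity), ENNReal.ofReal_mul (by norm_num),
        ENNReal.ofReal_mul (by norm_num : (0 : ℝ) ≤ 2), ENNReal.ofReal_ofNat]
      refine add_le_add (mul_le_mul_right ?_ 2) le_rfl
      by_cases hqr : vz w0 q.1 ≤ r
      · rw [Set.indicator_of_mem (s := {q : (Fin n → ℂ) × ℕ | vz w0 q.1 ≤ r}) hqr]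
        exact ENNReal.ofReal_le_ofReal (pow_le_pow_left₀ (norm_nonneg _) (hσle q) 2)
      · rw [hσout q (by linarith [not_le.1 hqr])]
        simp
    refine h1.trans_lt ?_
    have hm2 : AEMeasurable (fun q => 2 * ENNReal.ofReal (‖u q‖ ^ 2 * Real.exp (-Ph φ w0 N' 0 q))) S.μ := by
      have h9 : AEMeasurable (fun q => Real.exp (-Ph φ w0 N' 0 q)) S.μ := by
        have h10 := (aestronglyMeasurable_of_CD ((Ph_cd (S := S) (w0 := w0) hφ N' 0).mono (Nat.zero_le 2)))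
        have h11 : AEMeasurable (fun q => Ph φ w0 N' 0 q) S.μ := by
          have := Complex.measurable_re.comp_aemeasurable h10.aemeasurable
          simpa [Function.comp_def] using this
        exact Real.measurable_exp.comp_aemeasurable h11.neg
      exact (((hum.norm.aemeasurable.pow_const 2).mul h9).ennreal_ofReal).const_mul 2
    rw [lintegral_add_right' _ hm2, lintegral_const_mul' _ _ (by norm_num), lintegral_const_mul' _ _ (by norm_num),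
      lintegral_indicator (meas_ball r)]
    exact ENNReal.add_lt_top.2 ⟨ENNReal.mul_lt_top (by norm_num) hf0i,
      ENNReal.mul_lt_top (by norm_num) ((hub 0).trans_lt ENNReal.ofReal_lt_top)⟩
  · -- the singular bound
    have hgm : ∀ m : ℕ, AEMeasurable (fun q => ENNReal.ofReal (‖u q‖ ^ 2 * Real.exp (-Ph φ w0 N' m q))) S.μ := by
      intro m
      have h9 : AEMeasurable (fun q => Real.exp (-Ph φ w0 N' m q)) S.μ := by
        have h10 := (aestronglyMeasurable_of_CD ((Ph_cd (S := S) (w0 := w0) hφ N' m).mono (Nat.zero_le 2)))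
        have h11 : AEMeasurable (fun q => Ph φ w0 N' m q) S.μ := by
          have := Complex.measurable_re.comp_aemeasurable h10.aemeasurable
          simpa [Function.comp_def] using this
        exact Real.measurable_exp.comp_aemeasurable h11.neg
      exact ((hum.norm.aemeasurable.pow_const 2).mul h9).ennreal_ofReal
    have hmono : ∀ q, Monotone fun m : ℕ => ENNReal.ofReal (‖u q‖ ^ 2 * Real.exp (-Ph φ w0 N' m q)) := by
      intro q
      refine monotone_nat_of_le_succ fun m => ENNReal.ofReal_le_ofReal ?_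
      refine mul_le_mul_of_nonneg_left ?_ (by positivity)
      exact Real.exp_le_exp.2 (neg_le_neg (Ph_anti m q))
    have hsup : ∫⁻ q, ⨆ m : ℕ, ENNReal.ofReal (‖u q‖ ^ 2 * Real.exp (-Ph φ w0 N' m q)) ∂S.μ ≤ ENNReal.ofReal A3 := by
      rw [lintegral_iSup' hgm (Eventually.of_forall hmono)]
      exact iSup_le hub
    have h1 : ∫⁻ q in {q | vz w0 q.1 ≤ r / 2}, ENNReal.ofReal (‖F q - f0 q‖ ^ 2 * (vz w0 q.1 ^ N')⁻¹) ∂S.μ ≤
        ∫⁻ q, ENNReal.ofReal (Real.exp B) *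
          ⨆ m : ℕ, ENNReal.ofReal (‖u q‖ ^ 2 * Real.exp (-Ph φ w0 N' m q)) ∂S.μ := by
      rw [← lintegral_indicator (meas_ball (r / 2))]
      refine lintegral_mono_ae ?_
      filter_upwards [ae_mem_M (S := S), hFu] with q hq hqF
      by_cases h : vz w0 q.1 ≤ r / 2
      · rw [Set.indicator_of_mem (s := {q : (Fin n → ℂ) × ℕ | vz w0 q.1 ≤ r / 2}) h]
        have e1 : ‖F q - f0 q‖ = ‖u q‖ := by
          rw [← hqF, hσin q h]
          simp
        rw [e1]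
        by_cases hv : 0 < vz w0 q.1 ∨ N' = 0
        · have h2 : Tendsto (fun m : ℕ => ENNReal.ofReal (‖u q‖ ^ 2 * Real.exp (-Ph φ w0 N' m q))) atTop
              (𝓝 (ENNReal.ofReal (‖u q‖ ^ 2 * (Real.exp (-φ q.1) * (vz w0 q.1 ^ N')⁻¹)))) :=
            ENNReal.tendsto_ofReal ((Ph_tendsto hv).const_mul _)
          have h3 := le_of_tendsto' h2 fun m =>
            le_iSup (fun m : ℕ => ENNReal.ofReal (‖u q‖ ^ 2 * Real.exp (-Ph φ w0 N' m q))) m
          refine le_trans ?_ (mul_le_mul_right h3 _)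
          rw [← ENNReal.ofReal_mul (Real.exp_pos _).le]
          refine ENNReal.ofReal_le_ofReal ?_
          have h4 : 1 ≤ Real.exp B * Real.exp (-φ q.1) := by
            rw [← Real.exp_add]
            exact Real.one_le_exp (by linarith [hφB q.1 hq.1 (by linarith)])
          have h5 : 0 ≤ ‖u q‖ ^ 2 * (vz w0 q.1 ^ N')⁻¹ := by
            have := vz_nonneg (w0 := w0) (z := q.1)
            positivity
          nlinarith
        · push Not at hv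
          have h2 : vz w0 q.1 = 0 := le_antisymm hv.1 vz_nonneg
          rw [h2, zero_pow hv.2]
          simp
      · rw [Set.indicator_of_notMem (s := {q : (Fin n → ℂ) × ℕ | vz w0 q.1 ≤ r / 2}) h]
        exact zero_le
    refine h1.trans_lt ?_
    rw [lintegral_const_mul' _ _ ENNReal.ofReal_ne_top]
    exact ENNReal.mul_lt_top ENNReal.ofReal_lt_top (hsup.trans_lt ENNReal.ofReal_lt_top)

end main

end Vale.Agent.P300.H813.N
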