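import Mathlib

/-!
# P300 / PROJ : jets are killed by the singular weight (helper813)

`g` near `0 ∈ ℂⁿ`, `∫ |g|² |x|^(-m) < ∞` near `0`.  If `m ≥ 2 n` then `g 0 = 0`, if `m ≥ 2 n + 2` then the derivative of `g`
at `0` vanishes as well.
-/

open MeasureTheory Filter Topology Metric
open scoped ENNReal NNReal Pointwise

set_option autoImplicit false

namespace Vale.Agent.P300.H813

variable {n : ℕ}

/-- volume of small balls -/
theorem volume_ball_smul (v : Fin n → ℂ) (δ ε : ℝ) (hε : 0 < ε) :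
    volume (ball (ε • v) (ε * δ)) = ENNReal.ofReal (ε ^ (2 * n)) * volume (ball v δ) := by
  have h1 : ball (ε • v) (ε * δ) = ε • ball v δ := by
    rw [_root_.smul_ball hε.ne', Real.norm_eq_abs, abs_of_pos hε]
  have h2 : Module.finrank ℝ (Fin n → ℂ) = 2 * n := by
    simp [Module.finrank_pi_fintype, Complex.finrank_real_complex, mul_comm]
  rw [h1, Measure.addHaar_smul, h2, abs_of_nonneg (by positivity)]

/-- the core: a lower bound `c ε^k` of `g` on the balls `ε B(v, δ)` makes the integral infinite -/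
theorem jet_core {g : (Fin n → ℂ) → ℂ} {r : ℝ} {k m : ℕ} (hm : 2 * n + 2 * k ≤ m) (hn : 0 < n)
    {v : Fin n → ℂ} {δ c ε₀ : ℝ} (hδ : 0 < δ) (hc : 0 < c) (hε₀ : 0 < ε₀) (hv : ∀ x ∈ ball v δ, 0 < ‖x‖ ∧ ‖x‖ ≤ 2)
    (hg : ∀ ε, 0 < ε → ε < ε₀ → ∀ x ∈ ball v δ, c * ε ^ k ≤ ‖g (ε • x)‖) (hr : 0 < r)
    (hI : ∫⁻ x in ball (0 : Fin n → ℂ) r, ‖g x‖ₑ ^ 2 * ENNReal.ofReal ((‖x‖ ^ m)⁻¹) ≠ ⊤) : False := by
  set f : (Fin n → ℂ) → ℝ≥0∞ := fun x => ‖g x‖ₑ ^ 2 * ENNReal.ofReal ((‖x‖ ^ m)⁻¹) with hf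
  set κ : ℝ≥0∞ := ENNReal.ofReal (c ^ 2 * (2 ^ m)⁻¹) * volume (ball v δ) with hκ
  have hκ0 : κ ≠ 0 := by
    have h1 : volume (ball v δ) ≠ 0 := (measure_ball_pos volume v hδ).ne'
    have h2 : ENNReal.ofReal (c ^ 2 * (2 ^ m)⁻¹) ≠ 0 := by
      simp only [ne_eq, ENNReal.ofReal_eq_zero, not_le]; positivity
    exact mul_ne_zero h2 h1
  -- the small balls
  have hsmall : ∀ᶠ ε in 𝓝[>] (0 : ℝ), ball (ε • v) (ε * δ) ⊆ ball (0 : Fin n → ℂ) r ∧ 0 < ε ∧ ε < ε₀ ∧ ε ≤ 1 := by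
    have h1 : Tendsto (fun ε : ℝ => ε * 3) (𝓝[>] 0) (𝓝 0) := by
      have : Tendsto (fun ε : ℝ => ε * 3) (𝓝 0) (𝓝 (0 * 3)) := (continuous_id.mul continuous_const).tendsto 0
      rw [zero_mul] at this
      exact this.mono_left nhdsWithin_le_nhds
    filter_upwards [h1.eventually_lt_const hr, self_mem_nhdsWithin,
      nhdsWithin_le_nhds (Iio_mem_nhds hε₀), nhdsWithin_le_nhds (Iic_mem_nhds (zero_lt_one' ℝ))] with ε h2 h3 h4 h5
    refine ⟨?_, h3, h4, h5⟩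
    intro y hy
    have hε : 0 < ε := h3
    have hy' : y ∈ ε • ball v δ := by
      rw [_root_.smul_ball hε.ne', Real.norm_eq_abs, abs_of_pos hε]; exact hy
    obtain ⟨x, hx, rfl⟩ := hy'
    have := (hv x hx).2
    simp only [mem_ball_zero_iff]
    calc ‖ε • x‖ = ε * ‖x‖ := by rw [norm_smul, Real.norm_eq_abs, abs_of_pos hε]
      _ ≤ ε * 3 := by nlinarith
      _ < r := h2
  have hle : ∀ᶠ ε in 𝓝[>] (0 : ℝ), κ ≤ ∫⁻ x in ball (ε • v) (ε * δ), f x ∂(volume.restrict (ball (0 : Fin n → ℂ) r)) := by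
    filter_upwards [hsmall] with ε hε
    obtain ⟨hsub, hε, hε1, hε2⟩ := hε
    rw [Measure.restrict_restrict measurableSet_ball, Set.inter_eq_left.2 hsub]
    have h1 : ∀ y ∈ ball (ε • v) (ε * δ), ENNReal.ofReal ((c * ε ^ k) ^ 2 * ((2 * ε) ^ m)⁻¹) ≤ f y := by
      intro y hy
      have hy' : y ∈ ε • ball v δ := by
        rw [_root_.smul_ball hε.ne', Real.norm_eq_abs, abs_of_pos hε]; exact hy
      obtain ⟨x, hx, rfl⟩ := hy'
      have h2 := hg ε hε hε1 x hx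
      have h3 := hv x hx
      have h4 : ‖ε • x‖ = ε * ‖x‖ := by rw [norm_smul, Real.norm_eq_abs, abs_of_pos hε]
      have h5 : 0 < ‖ε • x‖ := by rw [h4]; exact mul_pos hε h3.1
      have h6 : ‖ε • x‖ ≤ 2 * ε := by rw [h4]; nlinarith [h3.2]
      simp only [hf]
      rw [ENNReal.ofReal_mul (by positivity)]
      gcongr
      rw [← ofReal_norm_eq_enorm, ← ENNReal.ofReal_pow (norm_nonneg _)]
      gcongr
    calc κ ≤ ENNReal.ofReal ((c * ε ^ k) ^ 2 * ((2 * ε) ^ m)⁻¹) * volume (ball (ε • v) (ε * δ)) := by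
          rw [volume_ball_smul v δ ε hε, hκ, ← mul_assoc, ← ENNReal.ofReal_mul (by positivity)]
          refine mul_le_mul' (ENNReal.ofReal_le_ofReal ?_) le_rfl
          have h7 : (c * ε ^ k) ^ 2 * ((2 * ε) ^ m)⁻¹ * ε ^ (2 * n) = c ^ 2 * (2 ^ m)⁻¹ * (ε ^ (2 * n + 2 * k) / ε ^ m) := by
            field_simp
            ring
          rw [h7]
          have h8 : 1 ≤ ε ^ (2 * n + 2 * k) / ε ^ m := by
            rw [one_le_div (by positivity)]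
            exact pow_le_pow_of_le_one hε.le hε2 hm
          have h9 : 0 ≤ c ^ 2 * ((2 : ℝ) ^ m)⁻¹ := by positivity
          nlinarith
      _ = ∫⁻ _ in ball (ε • v) (ε * δ), ENNReal.ofReal ((c * ε ^ k) ^ 2 * ((2 * ε) ^ m)⁻¹) := by
          rw [setLIntegral_const]
      _ ≤ ∫⁻ x in ball (ε • v) (ε * δ), f x := setLIntegral_mono' measurableSet_ball h1
  have hlim : Tendsto (fun ε : ℝ => ∫⁻ x in ball (ε • v) (ε * δ), f x ∂(volume.restrict (ball (0 : Fin n → ℂ) r)))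
      (𝓝[>] 0) (𝓝 0) := by
    refine tendsto_setLIntegral_zero hI ?_
    have h1 : Tendsto (fun ε : ℝ => ENNReal.ofReal (ε ^ (2 * n)) * volume (ball v δ)) (𝓝[>] 0) (𝓝 0) := by
      have h2 : Tendsto (fun ε : ℝ => ENNReal.ofReal (ε ^ (2 * n))) (𝓝[>] 0) (𝓝 0) := by
        have h3 : Tendsto (fun ε : ℝ => ENNReal.ofReal (ε ^ (2 * n))) (𝓝 0) (𝓝 (ENNReal.ofReal (0 ^ (2 * n)))) :=
          (ENNReal.continuous_ofReal.comp (continuous_pow _)).tendsto 0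
        rw [zero_pow (by omega), ENNReal.ofReal_zero] at h3
        exact h3.mono_left nhdsWithin_le_nhds
      have h4 := ENNReal.Tendsto.mul_const h2 (Or.inr (measure_ball_lt_top (μ := volume) (x := v) (r := δ)).ne)
      rwa [zero_mul] at h4
    refine tendsto_of_tendsto_of_tendsto_of_le_of_le' tendsto_const_nhds h1 (Eventually.of_forall fun _ => bot_le) ?_
    filter_upwards [self_mem_nhdsWithin] with ε hε
    simp only [Function.comp]
    calc (volume.restrict (ball (0 : Fin n → ℂ) r)) (ball (ε • v) (ε * δ)) ≤ volume (ball (ε • v) (ε * δ)) :=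
          Measure.restrict_apply_le _ _
      _ = _ := volume_ball_smul v δ ε hε
  have hfin := ge_of_tendsto hlim hle
  exact hκ0 (le_antisymm hfin bot_le)

/-- the value at `0` -/
theorem jet_zero {g : (Fin n → ℂ) → ℂ} {r : ℝ} {m : ℕ} (hn : 0 < n) (hm : 2 * n ≤ m) (hr : 0 < r)
    (hg : ContinuousAt g 0)
    (hI : ∫⁻ x in ball (0 : Fin n → ℂ) r, ‖g x‖ₑ ^ 2 * ENNReal.ofReal ((‖x‖ ^ m)⁻¹) ≠ ⊤) : g 0 = 0 := by
  by_contra h0
  have hc : 0 < ‖g 0‖ / 2 := by have := norm_pos_iff.2 h0; linarith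
  have h1 : ∀ᶠ x in 𝓝 (0 : Fin n → ℂ), ‖g 0‖ / 2 < ‖g x‖ :=
    hg.norm.eventually_const_lt (by linarith)
  obtain ⟨ρ, hρ, h2⟩ := Metric.eventually_nhds_iff_ball.1 h1
  have : Nonempty (Fin n) := ⟨⟨0, hn⟩⟩
  set v : Fin n → ℂ := fun _ => 1 with hv
  have hvn : ‖v‖ = 1 := by simp [hv]
  have hb : ∀ x ∈ ball v (1 / 2), 0 < ‖x‖ ∧ ‖x‖ ≤ 2 := by
    intro x hx
    have h3 : ‖x - v‖ < 1 / 2 := by rwa [mem_ball, dist_eq_norm] at hx
    have h4 : ‖v‖ ≤ ‖x‖ + ‖x - v‖ := by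
      have := norm_sub_le x (x - v)
      simpa using this
    have h5 : ‖x‖ ≤ ‖v‖ + ‖x - v‖ := by
      have := norm_add_le v (x - v)
      simpa using this
    constructor <;> linarith
  refine jet_core (k := 0) (c := ‖g 0‖ / 2) (ε₀ := ρ / 3) (v := v) (δ := 1 / 2) (by simpa using hm) hn (by norm_num) hc
    (by positivity) hb ?_ hr hI
  intro ε hε hε1 x hx
  simp only [pow_zero, mul_one]
  refine (h2 _ ?_).le
  rw [mem_ball_zero_iff, norm_smul, Real.norm_eq_abs, abs_of_pos hε]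
  have := (hb x hx).2
  nlinarith

/-- the derivative at `0` -/
theorem jet_one {g : (Fin n → ℂ) → ℂ} {r : ℝ} {m : ℕ} (hn : 0 < n) (hm : 2 * n + 2 ≤ m) (hr : 0 < r)
    {L : (Fin n → ℂ) →L[ℂ] ℂ} (hg : HasFDerivAt g L 0)
    (hI : ∫⁻ x in ball (0 : Fin n → ℂ) r, ‖g x‖ₑ ^ 2 * ENNReal.ofReal ((‖x‖ ^ m)⁻¹) ≠ ⊤) : g 0 = 0 ∧ L = 0 := by
  have h0 : g 0 = 0 := jet_zero hn (by omega) hr hg.continuousAt hI
  refine ⟨h0, ?_⟩
  by_contra hL
  obtain ⟨w, hw⟩ : ∃ w, L w ≠ 0 := by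
    by_contra h
    push Not at h
    exact hL (ContinuousLinearMap.ext h)
  have hw0 : w ≠ 0 := by rintro rfl; simp at hw
  have hwn : 0 < ‖w‖ := norm_pos_iff.2 hw0
  set v : Fin n → ℂ := (‖w‖⁻¹ : ℝ) • w with hv
  have hvn : ‖v‖ = 1 := by
    rw [hv, norm_smul, norm_inv, norm_norm, inv_mul_cancel₀ hwn.ne']
  have hLv : 0 < ‖L v‖ := by
    rw [norm_pos_iff, hv, ← Complex.coe_smul, map_smul, smul_eq_mul]
    refine mul_ne_zero ?_ hw
    simp [hwn.ne']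
  -- a ball around `v`
  obtain ⟨δ, hδ, hδ2, hδL⟩ : ∃ δ : ℝ, 0 < δ ∧ δ ≤ 1 / 2 ∧ ∀ x ∈ ball v δ, ‖L v‖ / 2 < ‖L x‖ := by
    have h1 : ∀ᶠ x in 𝓝 v, ‖L v‖ / 2 < ‖L x‖ :=
      L.continuous.continuousAt.norm.eventually_const_lt (by linarith)
    obtain ⟨ρ, hρ, h2⟩ := Metric.eventually_nhds_iff_ball.1 h1
    exact ⟨min ρ (1 / 2), by positivity, min_le_right _ _, fun x hx => h2 x (ball_subset_ball (min_le_left _ _) hx)⟩
  have hb : ∀ x ∈ ball v δ, 0 < ‖x‖ ∧ ‖x‖ ≤ 2 := by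
    intro x hx
    have h3 : ‖x - v‖ < δ := by rwa [mem_ball, dist_eq_norm] at hx
    have h4 : ‖v‖ ≤ ‖x‖ + ‖x - v‖ := by
      have := norm_sub_le x (x - v)
      simpa using this
    have h5 : ‖x‖ ≤ ‖v‖ + ‖x - v‖ := by
      have := norm_add_le v (x - v)
      simpa using this
    constructor <;> linarith
  -- differentiability
  have hd : ∀ᶠ x in 𝓝 (0 : Fin n → ℂ), ‖g x - L x‖ ≤ ‖L v‖ / 8 * ‖x‖ := by
    have h1 := hg.isLittleO.def (show (0 : ℝ) < ‖L v‖ / 8 by positivity)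
    simpa [h0] using h1
  obtain ⟨ρ, hρ, hd⟩ := Metric.eventually_nhds_iff_ball.1 hd
  refine jet_core (k := 1) (c := ‖L v‖ / 4) (ε₀ := ρ / 3) (v := v) (δ := δ) (by simpa using hm) hn hδ (by positivity)
    (by positivity) hb ?_ hr hI
  intro ε hε hε1 x hx
  have hx2 := (hb x hx).2
  have h6 : ‖ε • x‖ = ε * ‖x‖ := by rw [norm_smul, Real.norm_eq_abs, abs_of_pos hε]
  have h7 := hd (ε • x) (by rw [mem_ball_zero_iff, h6]; nlinarith)
  have h8 : ‖L (ε • x)‖ = ε * ‖L x‖ := by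
    rw [← Complex.coe_smul, map_smul, smul_eq_mul, norm_mul, Complex.norm_real, Real.norm_eq_abs, abs_of_pos hε]
  have h9 := hδL x hx
  have h10 : ‖L (ε • x)‖ ≤ ‖g (ε • x)‖ + ‖g (ε • x) - L (ε • x)‖ := by
    have := norm_sub_le (g (ε • x)) (g (ε • x) - L (ε • x))
    simpa using this
  rw [h8] at h10
  rw [h6] at h7
  have h11 : ‖L v‖ / 8 * (ε * ‖x‖) ≤ ‖L v‖ / 4 * ε := by
    have : 0 ≤ ‖L v‖ * ε := by positivity
    nlinarith
  have h12 : ε * (‖L v‖ / 2) ≤ ε * ‖L x‖ := by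
    apply mul_le_mul_of_nonneg_left h9.le hε.le
  simp only [pow_one]
  linarith

end Vale.Agent.P300.H813
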